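import Mathlib

/-!
Lower bound for linear circuits computing the discrete Fourier transform when only a few gates
use scalars of large modulus.  The proof tracks the determinant of the frame operator of the
computed linear forms restricted to a subspace that kills the inputs of the large scalar gates.
-/

open Finset Matrix
open scoped ComplexOrder

namespace Vale.Agent.Lib.P344

/-- One gate of a linear circuit: it reads earlier entries of the value table. -/
inductive Gate
  | add (i j : ℕ)
  | sub (i j : ℕ)
  | smul (c : ℂ) (i : ℕ)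

/-- The value computed by a gate from a value table. -/
def Gate.eval (g : Gate) (v : ℕ → ℂ) : ℂ :=
  match g with
  | .add i j => v i + v j
  | .sub i j => v i - v j
  | .smul c i => c * v i

/-- The initial value table: entries `0, …, n-1` are the inputs, every other entry is the
constant `0`. -/
def initTable {n : ℕ} (x : Fin n → ℂ) : ℕ → ℂ :=
  fun k => if h : k < n then x ⟨k, h⟩ else 0

/-- Run one gate: its value is written in the next free entry of the table. -/
def stepTable (p : ℕ × (ℕ → ℂ)) (g : Gate) : ℕ × (ℕ → ℂ) :=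
  (p.1 + 1, Function.update p.2 p.1 (g.eval p.2))

/-- Run a list of gates on the input `x`: entry `n` of the table is the constant `0` and entry
`n + 1 + t` is the value of gate number `t`. -/
def runTable {n : ℕ} (x : Fin n → ℂ) (gs : List Gate) : ℕ × (ℕ → ℂ) :=
  gs.foldl stepTable (n + 1, initTable x)

/-- The circuit `gs` computes the Fourier matrix `(ζ ^ (j k))` on designated outputs. -/
def ComputesDFT (ζ : ℂ) (n : ℕ) (gs : List Gate) : Prop :=
  ∃ out : Fin n → ℕ, ∀ (x : Fin n → ℂ) (j : Fin n),
    (runTable x gs).2 (out j) = ∑ k : Fin n, ζ ^ ((j : ℕ) * (k : ℕ)) * x k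

/-- A large gate: multiplication by a scalar of modulus bigger than `B`. -/
def IsLarge (B : ℝ) : Gate → Prop
  | .smul c _ => B < ‖c‖
  | _ => False

open Classical in
/-- The number of gates multiplying by a scalar of modulus bigger than `B`. -/
noncomputable def largeCount (B : ℝ) (gs : List Gate) : ℕ :=
  (gs.filter (fun g => decide (IsLarge B g))).length

section Table

variable {n : ℕ}

/-- The value table. -/
def val (x : Fin n → ℂ) (gs : List Gate) : ℕ → ℂ := (runTable x gs).2

lemma runTable_concat (x : Fin n → ℂ) (gs : List Gate) (g : Gate) :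
    runTable x (gs ++ [g]) = stepTable (runTable x gs) g := by
  simp [runTable, List.foldl_append]

lemma runTable_fst (x : Fin n → ℂ) (gs : List Gate) :
    (runTable x gs).1 = n + 1 + gs.length := by
  induction gs using List.reverseRecOn with
  | nil => rfl
  | append_singleton gs g ih =>
    rw [runTable_concat]
    simp [stepTable, ih]
    omega

lemma val_concat_self (x : Fin n → ℂ) (gs : List Gate) (g : Gate) :
    val x (gs ++ [g]) (n + 1 + gs.length) = g.eval (val x gs) := by
  unfold val
  rw [runTable_concat]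
  simp [stepTable, runTable_fst]

lemma val_concat_ne (x : Fin n → ℂ) (gs : List Gate) (g : Gate) {i : ℕ}
    (h : i ≠ n + 1 + gs.length) : val x (gs ++ [g]) i = val x gs i := by
  unfold val
  rw [runTable_concat]
  simp [stepTable, runTable_fst, Function.update_of_ne h]

lemma val_ge (x : Fin n → ℂ) (gs : List Gate) {i : ℕ} (h : n + 1 + gs.length ≤ i) :
    val x gs i = 0 := by
  induction gs using List.reverseRecOn with
  | nil =>
    simp only [List.length_nil, add_zero] at h
    simp only [val, runTable, List.foldl_nil, initTable]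
    rw [dif_neg (by omega)]
  | append_singleton gs g ih =>
    simp only [List.length_append, List.length_cons, List.length_nil] at h
    rw [val_concat_ne _ _ _ (by omega)]
    exact ih (by omega)

lemma val_add (x y : Fin n → ℂ) (gs : List Gate) (i : ℕ) :
    val (x + y) gs i = val x gs i + val y gs i := by
  induction gs using List.reverseRecOn generalizing i with
  | nil =>
    simp only [val, runTable, List.foldl_nil, initTable]
    split_ifs <;> simp
  | append_singleton gs g ih =>
    by_cases h : i = n + 1 + gs.length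
    · subst h
      rw [val_concat_self, val_concat_self, val_concat_self]
      cases g with
      | add a b => simp only [Gate.eval, ih]; ring
      | sub a b => simp only [Gate.eval, ih]; ring
      | smul c a => simp only [Gate.eval, ih]; ring
    · rw [val_concat_ne _ _ _ h, val_concat_ne _ _ _ h, val_concat_ne _ _ _ h, ih]

lemma val_smul (c : ℂ) (x : Fin n → ℂ) (gs : List Gate) (i : ℕ) :
    val (c • x) gs i = c * val x gs i := by
  induction gs using List.reverseRecOn generalizing i with
  | nil =>
    simp only [val, runTable, List.foldl_nil, initTable]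
    split_ifs <;> simp
  | append_singleton gs g ih =>
    by_cases h : i = n + 1 + gs.length
    · subst h
      rw [val_concat_self, val_concat_self]
      cases g with
      | add a b => simp only [Gate.eval, ih]; ring
      | sub a b => simp only [Gate.eval, ih]; ring
      | smul d a => simp only [Gate.eval, ih]; ring
    · rw [val_concat_ne _ _ _ h, val_concat_ne _ _ _ h, ih]

end Table

section Frame

variable {k : ℕ}

/-- The leverage of `r` with respect to `A`. -/
noncomputable def lev (A : Matrix (Fin k) (Fin k) ℂ) (r : Fin k → ℂ) : ℝ :=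
  (star r ⬝ᵥ (A⁻¹ *ᵥ r)).re

lemma form_nonneg {A : Matrix (Fin k) (Fin k) ℂ} (hA : A.PosDef) (r : Fin k → ℂ) :
    0 ≤ star r ⬝ᵥ (A⁻¹ *ᵥ r) :=
  hA.posSemidef.inv.dotProduct_mulVec_nonneg r

lemma form_eq {A : Matrix (Fin k) (Fin k) ℂ} (hA : A.PosDef) (r : Fin k → ℂ) :
    star r ⬝ᵥ (A⁻¹ *ᵥ r) = (lev A r : ℂ) := by
  have h := form_nonneg hA r
  rw [Complex.nonneg_iff] at h
  apply Complex.ext
  · simp [lev]
  · simp [h.2.symm]

lemma lev_nonneg {A : Matrix (Fin k) (Fin k) ℂ} (hA : A.PosDef) (r : Fin k → ℂ) :
    0 ≤ lev A r := by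
  have h := form_nonneg hA r
  rw [Complex.nonneg_iff] at h
  exact h.1

lemma lev_add_le {A : Matrix (Fin k) (Fin k) ℂ} (hA : A.PosDef) (u v : Fin k → ℂ) :
    lev A (u + v) ≤ 2 * lev A u + 2 * lev A v := by
  have h := lev_nonneg hA (u - v)
  have key : lev A (u + v) + lev A (u - v) = 2 * lev A u + 2 * lev A v := by
    unfold lev
    rw [← Complex.add_re]
    have : star (u + v) ⬝ᵥ (A⁻¹ *ᵥ (u + v)) + star (u - v) ⬝ᵥ (A⁻¹ *ᵥ (u - v)) =
        2 * (star u ⬝ᵥ (A⁻¹ *ᵥ u)) + 2 * (star v ⬝ᵥ (A⁻¹ *ᵥ v)) := by
      simp only [mulVec_add, mulVec_sub, star_add, star_sub, dotProduct_add, add_dotProduct,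
        dotProduct_sub, sub_dotProduct]
      ring
    rw [this]
    simp
  linarith

lemma lev_sub_le {A : Matrix (Fin k) (Fin k) ℂ} (hA : A.PosDef) (u v : Fin k → ℂ) :
    lev A (u - v) ≤ 2 * lev A u + 2 * lev A v := by
  have h := lev_nonneg hA (u + v)
  have key : lev A (u + v) + lev A (u - v) = 2 * lev A u + 2 * lev A v := by
    unfold lev
    rw [← Complex.add_re]
    have : star (u + v) ⬝ᵥ (A⁻¹ *ᵥ (u + v)) + star (u - v) ⬝ᵥ (A⁻¹ *ᵥ (u - v)) =
        2 * (star u ⬝ᵥ (A⁻¹ *ᵥ u)) + 2 * (star v ⬝ᵥ (A⁻¹ *ᵥ v)) := by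
      simp only [mulVec_add, mulVec_sub, star_add, star_sub, dotProduct_add, add_dotProduct,
        dotProduct_sub, sub_dotProduct]
      ring
    rw [this]
    simp
  linarith

lemma lev_smul (A : Matrix (Fin k) (Fin k) ℂ) (c : ℂ) (u : Fin k → ℂ) :
    lev A (c • u) = ‖c‖ ^ 2 * lev A u := by
  unfold lev
  have : star (c • u) ⬝ᵥ (A⁻¹ *ᵥ (c • u)) = ((‖c‖ ^ 2 : ℝ) : ℂ) * (star u ⬝ᵥ (A⁻¹ *ᵥ u)) := by
    simp only [mulVec_smul, star_smul, smul_dotProduct, dotProduct_smul, smul_eq_mul]
    have h2 : star c * c = ((‖c‖ ^ 2 : ℝ) : ℂ) := by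
      rw [Complex.star_def, Complex.conj_mul']
      push_cast
      rfl
    rw [← mul_assoc, mul_comm c, h2]
  rw [this, Complex.re_ofReal_mul]

lemma lev_zero (A : Matrix (Fin k) (Fin k) ℂ) : lev A 0 = 0 := by
  simp [lev]

lemma lev_le_one {A R : Matrix (Fin k) (Fin k) ℂ} {r : Fin k → ℂ} (hA : A.PosDef)
    (hR : R.PosSemidef) (h : A = vecMulVec r (star r) + R) : lev A r ≤ 1 := by
  have hunit : IsUnit A.det := (Matrix.isUnit_iff_isUnit_det A).mp hA.isUnit
  set x : Fin k → ℂ := A⁻¹ *ᵥ r with hx
  have hAx : A *ᵥ x = r := by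
    rw [hx, mulVec_mulVec, Matrix.mul_nonsing_inv A hunit, one_mulVec]
  set l : ℝ := lev A r with hl
  have hform : star r ⬝ᵥ x = (l : ℂ) := form_eq hA r
  have hform' : star x ⬝ᵥ r = (l : ℂ) := by
    rw [star_dotProduct, hform]
    simp
  have h3 : vecMulVec r (star r) *ᵥ x = (l : ℂ) • r := by
    rw [← hform]
    ext i
    simp [mulVec, dotProduct, vecMulVec_apply, Finset.mul_sum, mul_comm, mul_left_comm]
  have h4 : star x ⬝ᵥ (A *ᵥ x) = (l : ℂ) := by
    rw [hAx, hform']
  have h5 : star x ⬝ᵥ (A *ᵥ x) = (l : ℂ) * (l : ℂ) + star x ⬝ᵥ (R *ᵥ x) := by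
    conv_lhs => rw [h]
    rw [add_mulVec, dotProduct_add, h3, dotProduct_smul, hform']
    simp
  have h6 := hR.dotProduct_mulVec_nonneg x
  rw [Complex.nonneg_iff] at h6
  have h7 : (l : ℂ) = (l : ℂ) * (l : ℂ) + star x ⬝ᵥ (R *ᵥ x) := by rw [← h5, h4]
  have h8 := congrArg Complex.re h7
  simp only [Complex.add_re, Complex.mul_re, Complex.ofReal_re, Complex.ofReal_im, mul_zero,
    sub_zero] at h8
  have h9 : 0 ≤ l := lev_nonneg hA r
  nlinarith [h6.1]

lemma det_update {A : Matrix (Fin k) (Fin k) ℂ} (hA : A.PosDef) (r : Fin k → ℂ) :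
    (A + vecMulVec r (star r)).det = A.det * (1 + (lev A r : ℂ)) := by
  have hunit : IsUnit A.det := (Matrix.isUnit_iff_isUnit_det A).mp hA.isUnit
  rw [vecMulVec_eq Unit, det_add_replicateCol_mul_replicateRow hunit, ← form_eq hA]
  congr 1
  rw [det_unique]
  simp [Matrix.mul_apply, replicateRow, replicateCol, dotProduct, mulVec, Finset.mul_sum,
    Finset.sum_mul, mul_assoc]
  exact Finset.sum_comm

lemma det_re_eq {A : Matrix (Fin k) (Fin k) ℂ} (hA : A.PosDef) :
    A.det = ((A.det).re : ℂ) ∧ 0 < (A.det).re := by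
  have h := hA.det_pos
  rw [Complex.pos_iff] at h
  refine ⟨?_, h.1⟩
  apply Complex.ext
  · simp
  · simp [h.2.symm]

lemma det_update_re {A : Matrix (Fin k) (Fin k) ℂ} (hA : A.PosDef) (r : Fin k → ℂ) :
    ((A + vecMulVec r (star r)).det).re = (A.det).re * (1 + lev A r) := by
  rw [det_update hA r]
  have h : (1 + (lev A r : ℂ)) = ((1 + lev A r : ℝ) : ℂ) := by push_cast; rfl
  rw [h, Complex.re_mul_ofReal]

lemma posDef_add_rank_one {A : Matrix (Fin k) (Fin k) ℂ} (hA : A.PosDef) (r : Fin k → ℂ) :
    (A + vecMulVec r (star r)).PosDef :=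
  hA.add_posSemidef (posSemidef_vecMulVec_self_star r)

lemma det_sum_ge {X : Matrix (Fin k) (Fin k) ℂ} (hX : X.PosDef) (ρ : ℕ → Fin k → ℂ)
    (T : Finset ℕ) :
    (X + ∑ i ∈ T, vecMulVec (ρ i) (star (ρ i))).PosDef ∧
      (X.det).re ≤ ((X + ∑ i ∈ T, vecMulVec (ρ i) (star (ρ i))).det).re := by
  induction T using Finset.induction_on with
  | empty => simpa using hX
  | insert a T ha ih =>
    rw [Finset.sum_insert ha]
    have e : X + (vecMulVec (ρ a) (star (ρ a)) + ∑ i ∈ T, vecMulVec (ρ i) (star (ρ i))) =
        (X + ∑ i ∈ T, vecMulVec (ρ i) (star (ρ i))) + vecMulVec (ρ a) (star (ρ a)) := by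
      abel
    rw [e]
    refine ⟨posDef_add_rank_one ih.1 _, ?_⟩
    rw [det_update_re ih.1]
    have h1 := lev_nonneg ih.1 (ρ a)
    have h2 := (det_re_eq ih.1).2
    nlinarith [ih.2]

end Frame

section Main

variable {n k : ℕ}

/-- The row of a computed value: its values on the family `v`. -/
def rowV (v : Fin k → Fin n → ℂ) (gs : List Gate) (i : ℕ) : Fin k → ℂ :=
  fun l => val (v l) gs i

/-- The frame operator of all computed rows. -/
noncomputable def frame (v : Fin k → Fin n → ℂ) (gs : List Gate) : Matrix (Fin k) (Fin k) ℂ :=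
  ∑ i ∈ range (n + 1 + gs.length), vecMulVec (rowV v gs i) (star (rowV v gs i))

lemma frame_concat (v : Fin k → Fin n → ℂ) (gs : List Gate) (g : Gate) :
    frame v (gs ++ [g]) = frame v gs +
      vecMulVec (rowV v (gs ++ [g]) (n + 1 + gs.length))
        (star (rowV v (gs ++ [g]) (n + 1 + gs.length))) := by
  unfold frame
  have e : n + 1 + (gs ++ [g]).length = (n + 1 + gs.length) + 1 := by
    simp
    omega
  rw [e, Finset.sum_range_succ]
  congr 1
  apply Finset.sum_congr rfl
  intro i hi
  have hi' : i ≠ n + 1 + gs.length := by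
    have := Finset.mem_range.mp hi
    omega
  have : rowV v (gs ++ [g]) i = rowV v gs i := by
    funext l
    exact val_concat_ne _ _ _ hi'
  rw [this]

lemma frame_nil {v : Fin k → Fin n → ℂ}
    (hv : ∀ l l', ∑ i, v l i * star (v l' i) = if l = l' then 1 else 0) :
    frame v [] = 1 := by
  ext l l'
  unfold frame
  simp only [List.length_nil, add_zero]
  rw [Finset.sum_range_succ, Matrix.add_apply, Matrix.sum_apply]
  have h0 : rowV v [] n = 0 := by
    funext l
    simp [rowV, val, runTable, initTable]
  rw [h0]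
  simp only [star_zero, vecMulVec_apply, Pi.zero_apply, mul_zero, add_zero]
  rw [Matrix.one_apply, ← hv l l', Finset.sum_range]
  apply Finset.sum_congr rfl
  intro i _
  simp [rowV, val, runTable, initTable]

lemma frame_posDef {v : Fin k → Fin n → ℂ}
    (hv : ∀ l l', ∑ i, v l i * star (v l' i) = if l = l' then 1 else 0) (gs : List Gate) :
    (frame v gs).PosDef := by
  induction gs using List.reverseRecOn with
  | nil =>
    rw [frame_nil hv]
    exact PosDef.one
  | append_singleton gs g ih =>
    rw [frame_concat]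
    exact posDef_add_rank_one ih _

lemma lev_row_le_one {v : Fin k → Fin n → ℂ}
    (hv : ∀ l l', ∑ i, v l i * star (v l' i) = if l = l' then 1 else 0) (gs : List Gate) (i : ℕ) :
    lev (frame v gs) (rowV v gs i) ≤ 1 := by
  by_cases hi : i < n + 1 + gs.length
  · refine lev_le_one (R := ∑ j ∈ (range (n + 1 + gs.length)).erase i,
      vecMulVec (rowV v gs j) (star (rowV v gs j))) (frame_posDef hv gs) ?_ ?_
    · exact posSemidef_sum _ (fun j _ => posSemidef_vecMulVec_self_star _)
    · unfold frame
      exact (Finset.add_sum_erase _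
        (fun j => vecMulVec (rowV v gs j) (star (rowV v gs j))) (Finset.mem_range.mpr hi)).symm
  · have : rowV v gs i = 0 := by
      funext l
      exact val_ge _ _ (by omega)
    rw [this, lev_zero]
    norm_num

/-- The inputs of the large gates vanish on the family `v`. -/
def GoodV (B : ℝ) (v : Fin k → Fin n → ℂ) (gs : List Gate) : Prop :=
  ∀ pre c i post, gs = pre ++ Gate.smul c i :: post → B < ‖c‖ → ∀ l, val (v l) pre i = 0

lemma det_frame_le {B : ℝ} (hB : 2 ≤ B) {v : Fin k → Fin n → ℂ}
    (hv : ∀ l l', ∑ i, v l i * star (v l' i) = if l = l' then 1 else 0) (gs : List Gate)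
    (hg : GoodV B v gs) : ((frame v gs).det).re ≤ (1 + B ^ 2) ^ gs.length := by
  induction gs using List.reverseRecOn with
  | nil =>
    rw [frame_nil hv]
    simp
  | append_singleton gs g ih =>
    have hg' : GoodV B v gs := by
      intro pre c i post h hc l
      exact hg pre c i (post ++ [g]) (by rw [h]; simp) hc l
    have ih' := ih hg'
    have hpos := frame_posDef hv gs
    set r := rowV v (gs ++ [g]) (n + 1 + gs.length) with hr
    have hlev : lev (frame v gs) r ≤ B ^ 2 := by
      have hB2 : (4 : ℝ) ≤ B ^ 2 := by nlinarith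
      cases g with
      | add a b =>
        have : r = rowV v gs a + rowV v gs b := by
          funext l
          simp only [hr, rowV, val_concat_self, Gate.eval, Pi.add_apply]
        rw [this]
        have h1 := lev_row_le_one hv gs a
        have h2 := lev_row_le_one hv gs b
        have h3 := lev_add_le hpos (rowV v gs a) (rowV v gs b)
        linarith
      | sub a b =>
        have : r = rowV v gs a - rowV v gs b := by
          funext l
          simp only [hr, rowV, val_concat_self, Gate.eval, Pi.sub_apply]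
        rw [this]
        have h1 := lev_row_le_one hv gs a
        have h2 := lev_row_le_one hv gs b
        have h3 := lev_sub_le hpos (rowV v gs a) (rowV v gs b)
        linarith
      | smul c a =>
        have : r = c • rowV v gs a := by
          funext l
          simp only [hr, rowV, val_concat_self, Gate.eval, Pi.smul_apply, smul_eq_mul]
        rw [this, lev_smul]
        by_cases hc : B < ‖c‖
        · have h0 : rowV v gs a = 0 := by
            funext l
            exact hg gs c a [] rfl hc l
          rw [h0, lev_zero]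
          nlinarith
        · have h1 := lev_row_le_one hv gs a
          have h2 := lev_nonneg hpos (rowV v gs a)
          have hc' : ‖c‖ ≤ B := not_lt.mp hc
          have h3 : ‖c‖ ^ 2 ≤ B ^ 2 := by
            have := norm_nonneg c
            nlinarith
          have h4 : 0 ≤ ‖c‖ ^ 2 := by positivity
          nlinarith
    rw [frame_concat, det_update_re hpos]
    simp only [List.length_append, List.length_cons, List.length_nil, zero_add]
    rw [pow_succ]
    have h1 := (det_re_eq hpos).2
    have h2 := lev_nonneg hpos r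
    have h3 : (0 : ℝ) ≤ (1 + B ^ 2) ^ gs.length := by positivity
    apply mul_le_mul ih' (by linarith) (by linarith) h3

/-- Orthogonality of the characters. -/
lemma char_orth {ζ : ℂ} (hζ : IsPrimitiveRoot ζ n) (a b : Fin n) :
    ∑ j : Fin n, ζ ^ ((j : ℕ) * (a : ℕ)) * star (ζ ^ ((j : ℕ) * (b : ℕ))) =
      if a = b then (n : ℂ) else 0 := by
  have hn0 : n ≠ 0 := by
    intro h
    subst h
    exact a.elim0
  have hnorm : ‖ζ‖ = 1 := hζ.norm'_eq_one hn0
  have hcj : star ζ * ζ = 1 := by
    rw [Complex.star_def, Complex.conj_mul', hnorm]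
    simp
  set ω : ℂ := ζ ^ (a : ℕ) * (star ζ) ^ (b : ℕ) with hω
  have hterm : ∀ j : Fin n, ζ ^ ((j : ℕ) * (a : ℕ)) * star (ζ ^ ((j : ℕ) * (b : ℕ))) =
      ω ^ (j : ℕ) := by
    intro j
    rw [hω, mul_pow, star_pow, ← pow_mul, ← pow_mul, mul_comm (j : ℕ) (a : ℕ),
      mul_comm (j : ℕ) (b : ℕ)]
  simp only [hterm]
  rw [Fin.sum_univ_eq_sum_range (fun j => ω ^ j) n]
  by_cases hab : a = b
  · subst hab
    have : ω = 1 := by
      rw [hω, mul_comm, ← mul_pow, hcj, one_pow]
    rw [this]
    simp
  · rw [if_neg hab]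
    have hω1 : ω ≠ 1 := by
      intro h
      apply hab
      have h2 : ζ ^ (a : ℕ) = ζ ^ (b : ℕ) := by
        have h3 : ζ ^ (a : ℕ) * ((star ζ) ^ (b : ℕ) * ζ ^ (b : ℕ)) = ζ ^ (b : ℕ) := by
          rw [← mul_assoc, ← hω, h, one_mul]
        rw [← mul_pow, hcj, one_pow, mul_one] at h3
        exact h3
      exact Fin.ext (hζ.pow_inj a.2 b.2 h2)
    have hωn : ω ^ n = 1 := by
      have h1 : (star ζ) ^ n = 1 := by
        rw [← star_pow, hζ.pow_eq_one, star_one]
      rw [hω, mul_pow, ← pow_mul, ← pow_mul, mul_comm (a : ℕ), mul_comm (b : ℕ), pow_mul, pow_mul,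
        hζ.pow_eq_one, h1, one_pow, one_pow, one_mul]
    rw [geom_sum_eq hω1, hωn]
    simp

/-- The frame of the output rows of a circuit for the Fourier matrix. -/
lemma sum_out_rows {ζ : ℂ} (hζ : IsPrimitiveRoot ζ n) {v : Fin k → Fin n → ℂ}
    (hv : ∀ l l', ∑ i, v l i * star (v l' i) = if l = l' then 1 else 0) {gs : List Gate}
    {out : Fin n → ℕ}
    (hout : ∀ (x : Fin n → ℂ) (j : Fin n),
      (runTable x gs).2 (out j) = ∑ k : Fin n, ζ ^ ((j : ℕ) * (k : ℕ)) * x k) :
    ∑ j : Fin n, vecMulVec (rowV v gs (out j)) (star (rowV v gs (out j))) =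
      (n : ℂ) • (1 : Matrix (Fin k) (Fin k) ℂ) := by
  ext l l'
  rw [Matrix.sum_apply, Matrix.smul_apply, Matrix.one_apply, smul_eq_mul]
  have hrow : ∀ j : Fin n, ∀ m, rowV v gs (out j) m = ∑ a : Fin n, ζ ^ ((j : ℕ) * (a : ℕ)) * v m a :=
    fun j m => hout (v m) j
  have key : ∀ j : Fin n, vecMulVec (rowV v gs (out j)) (star (rowV v gs (out j))) l l' =
      ∑ a : Fin n, ∑ b : Fin n, (v l a * star (v l' b)) *
        (ζ ^ ((j : ℕ) * (a : ℕ)) * star (ζ ^ ((j : ℕ) * (b : ℕ)))) := by
    intro j
    rw [vecMulVec_apply, Pi.star_apply, hrow, hrow, star_sum, Finset.sum_mul_sum]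
    apply Finset.sum_congr rfl
    intro a _
    apply Finset.sum_congr rfl
    intro b _
    rw [star_mul']
    ring
  simp only [key]
  rw [Finset.sum_comm]
  have h2 : ∀ a : Fin n, ∑ j : Fin n, ∑ b : Fin n, (v l a * star (v l' b)) *
      (ζ ^ ((j : ℕ) * (a : ℕ)) * star (ζ ^ ((j : ℕ) * (b : ℕ)))) =
      (n : ℂ) * (v l a * star (v l' a)) := by
    intro a
    rw [Finset.sum_comm]
    have h3 : ∀ b : Fin n, ∑ j : Fin n, (v l a * star (v l' b)) *
        (ζ ^ ((j : ℕ) * (a : ℕ)) * star (ζ ^ ((j : ℕ) * (b : ℕ)))) =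
        (v l a * star (v l' b)) * (if a = b then (n : ℂ) else 0) := by
      intro b
      rw [← Finset.mul_sum, char_orth hζ]
    simp only [h3]
    rw [Finset.sum_eq_single a]
    · simp
      ring
    · intro b _ hb
      rw [if_neg (Ne.symm hb), mul_zero]
    · simp
  simp only [h2]
  rw [← Finset.mul_sum, hv]

lemma out_props {ζ : ℂ} (hζ : IsPrimitiveRoot ζ n) {gs : List Gate} {out : Fin n → ℕ}
    (hout : ∀ (x : Fin n → ℂ) (j : Fin n),
      (runTable x gs).2 (out j) = ∑ k : Fin n, ζ ^ ((j : ℕ) * (k : ℕ)) * x k) :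
    Function.Injective out ∧ ∀ j, out j < n + 1 + gs.length := by
  have hval : ∀ (x : Fin n → ℂ) (j : Fin n),
      val x gs (out j) = ∑ k : Fin n, ζ ^ ((j : ℕ) * (k : ℕ)) * x k := hout
  constructor
  · intro j j' hjj
    by_cases hn : n = 1
    · subst hn
      exact Subsingleton.elim _ _
    have hn2 : 1 < n := by
      have := j.2
      omega
    let e1 : Fin n := ⟨1, hn2⟩
    let x : Fin n → ℂ := fun a => if a = e1 then 1 else 0
    have h1 := hval x j
    have h2 := hval x j'
    rw [hjj, h2] at h1
    simp only [x, mul_ite, mul_one, mul_zero, Finset.sum_ite_eq', Finset.mem_univ, if_true,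
      e1] at h1
    exact Fin.ext (hζ.pow_inj j'.2 j.2 h1 |>.symm) 
  · intro j
    by_contra hc
    have hge : n + 1 + gs.length ≤ out j := by omega
    let x : Fin n → ℂ := fun a => if a = j then 1 else 0
    have h0' := val_ge x gs hge
    rw [hval x j] at h0'
    simp only [x, mul_ite, mul_one, mul_zero, Finset.sum_ite_eq', Finset.mem_univ, if_true] at h0'
    have hn0 : n ≠ 0 := by
      have := j.2
      omega
    exact (pow_ne_zero _ (hζ.ne_zero hn0)) h0'

lemma core_bound {ζ : ℂ} (hζ : IsPrimitiveRoot ζ n) {B : ℝ} (hB : 2 ≤ B)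
    {v : Fin k → Fin n → ℂ}
    (hv : ∀ l l', ∑ i, v l i * star (v l' i) = if l = l' then 1 else 0) {gs : List Gate}
    (hg : GoodV B v gs) (hn : 1 ≤ n) (h : ComputesDFT ζ n gs) :
    (n : ℝ) ^ k ≤ (1 + B ^ 2) ^ gs.length := by
  obtain ⟨out, hout⟩ := h
  obtain ⟨hinj, hlt⟩ := out_props hζ hout
  have hup := det_frame_le hB hv gs hg
  have hsum := sum_out_rows hζ hv hout
  set T : Finset ℕ := range (n + 1 + gs.length) \ (univ.image out) with hT
  have hframe : frame v gs = (n : ℂ) • (1 : Matrix (Fin k) (Fin k) ℂ) +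
      ∑ i ∈ T, vecMulVec (rowV v gs i) (star (rowV v gs i)) := by
    unfold frame
    have hsub : univ.image out ⊆ range (n + 1 + gs.length) := by
      intro i hi
      obtain ⟨j, _, rfl⟩ := Finset.mem_image.mp hi
      exact Finset.mem_range.mpr (hlt j)
    rw [← Finset.sum_sdiff hsub, add_comm, Finset.sum_image (fun a _ b _ e => hinj e), hsum]
  have hX : ((n : ℂ) • (1 : Matrix (Fin k) (Fin k) ℂ)).PosDef := by
    have hn' : (0 : ℂ) < (n : ℂ) := by
      have : (0 : ℝ) < (n : ℝ) := by exact_mod_cast hn
      exact_mod_cast this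
    exact PosDef.one.smul hn'
  have hlow := (det_sum_ge hX (rowV v gs) T).2
  rw [← hframe] at hlow
  have hdet : (((n : ℂ) • (1 : Matrix (Fin k) (Fin k) ℂ)).det).re = (n : ℝ) ^ k := by
    rw [det_smul, det_one, mul_one, Fintype.card_fin]
    have : ((n : ℂ)) ^ k = (((n : ℝ) ^ k : ℝ) : ℂ) := by push_cast; rfl
    rw [this, Complex.ofReal_re]
  rw [hdet] at hlow
  linarith

/-- Dimension count for a hyperplane section. -/
lemma finrank_inf_ker {E : Type*} [AddCommGroup E] [Module ℂ E] [FiniteDimensional ℂ E]
    (W : Submodule ℂ E) (f : E →ₗ[ℂ] ℂ) :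
    Module.finrank ℂ W ≤ Module.finrank ℂ (W ⊓ LinearMap.ker f : Submodule ℂ E) + 1 := by
  have h1 := Submodule.finrank_sup_add_finrank_inf_eq W (LinearMap.ker f)
  have h2 := LinearMap.finrank_range_add_finrank_ker f
  have h3 : Module.finrank ℂ (LinearMap.range f) ≤ Module.finrank ℂ ℂ :=
    Submodule.finrank_le _
  have h4 : Module.finrank ℂ (W ⊔ LinearMap.ker f : Submodule ℂ E) ≤ Module.finrank ℂ E :=
    Submodule.finrank_le _
  rw [Module.finrank_self] at h3
  omega

/-- The value of a table entry as a linear form on Euclidean space. -/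
noncomputable def valL (gs : List Gate) (i : ℕ) : EuclideanSpace ℂ (Fin n) →ₗ[ℂ] ℂ where
  toFun x := val x.ofLp gs i
  map_add' x y := by
    simpa using val_add x.ofLp y.ofLp gs i
  map_smul' c x := by
    simpa using val_smul c x.ofLp gs i

lemma exists_subspace (B : ℝ) (gs : List Gate) :
    ∃ W : Submodule ℂ (EuclideanSpace ℂ (Fin n)),
      n ≤ Module.finrank ℂ W + largeCount B gs ∧
      ∀ pre c i post, gs = pre ++ Gate.smul c i :: post → B < ‖c‖ →
        ∀ x ∈ W, val (WithLp.ofLp x) pre i = 0 := by
  classical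
  induction gs using List.reverseRecOn with
  | nil =>
    refine ⟨⊤, ?_, ?_⟩
    · simp
    · intro pre c i post h
      simp at h
  | append_singleton gs g ih =>
    obtain ⟨W, hW1, hW2⟩ := ih
    have hsplit : ∀ pre c i post, gs ++ [g] = pre ++ Gate.smul c i :: post →
        (post = [] ∧ pre = gs ∧ g = Gate.smul c i) ∨ (gs = pre ++ Gate.smul c i :: post.dropLast) := by
      intro pre c i post h
      rcases List.eq_nil_or_concat post with rfl | ⟨post', g', rfl⟩
      · left
        have := List.append_inj' h rfl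
        simp at this
        exact ⟨rfl, this.1.symm, this.2⟩
      · right
        have h' : gs ++ [g] = (pre ++ Gate.smul c i :: post') ++ [g'] := by
          rw [h]
          simp
        have := (List.append_inj' h' rfl).1
        simpa using this
    by_cases hl : IsLarge B g
    · cases g with
      | add a b => exact absurd hl (by simp [IsLarge])
      | sub a b => exact absurd hl (by simp [IsLarge])
      | smul c a =>
        refine ⟨W ⊓ LinearMap.ker (valL gs a), ?_, ?_⟩
        · have h1 := finrank_inf_ker W (valL gs a)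
          have h2 : largeCount B (gs ++ [Gate.smul c a]) = largeCount B gs + 1 := by
            unfold largeCount
            simp [List.filter_append, hl]
          rw [h2]
          omega
        · intro pre c' i post h hc x hx
          rcases hsplit pre c' i post h with ⟨_, rfl, hg⟩ | h2
          · have hg' : a = i := by
              injection hg
            subst hg'
            exact (Submodule.mem_inf.mp hx).2
          · exact hW2 pre c' i _ h2 hc x (Submodule.mem_inf.mp hx).1
    · refine ⟨W, ?_, ?_⟩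
      · have h2 : largeCount B (gs ++ [g]) = largeCount B gs := by
          unfold largeCount
          simp [List.filter_append, hl]
        rw [h2]
        exact hW1
      · intro pre c' i post h hc x hx
        rcases hsplit pre c' i post h with ⟨_, rfl, hg⟩ | h2
        · exfalso
          apply hl
          rw [hg]
          exact hc
        · exact hW2 pre c' i _ h2 hc x hx

end Main

end Vale.Agent.Lib.P344

open Vale.Agent.Lib.P344 in
/-- For every primitive `n`-th root of unity `ζ` (in particular `exp (2 π i / n)`), every `B ≥ 2`,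
every linear circuit `gs` computing the Fourier matrix `(ζ ^ (j k))` satisfies
`n ^ (n - m) ≤ (1 + B ^ 2) ^ s`, where `s` is its number of gates and `m` the number of its gates
multiplying by a scalar of modulus bigger than `B`. -/
theorem Vale.Agent.Results.P344.A_few_large.result {n : ℕ} (hn : 1 ≤ n) {ζ : ℂ}
    (hζ : IsPrimitiveRoot ζ n) {B : ℝ} (hB : 2 ≤ B) (gs : List Gate)
    (h : ComputesDFT ζ n gs) :
    (n : ℝ) ^ (n - largeCount B gs) ≤ (1 + B ^ 2) ^ gs.length := by
  obtain ⟨W, hW1, hW2⟩ := exists_subspace (n := n) B gs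
  let b := stdOrthonormalBasis ℂ W
  set k := Module.finrank ℂ W with hk
  let v : Fin k → Fin n → ℂ := fun l => WithLp.ofLp ((b l : W) : EuclideanSpace ℂ (Fin n))
  have hv : ∀ l l', ∑ i, v l i * star (v l' i) = if l = l' then 1 else 0 := by
    intro l l'
    have h1 := orthonormal_iff_ite.mp b.orthonormal l' l
    rw [Submodule.coe_inner, PiLp.inner_apply] at h1
    have h2 : ∑ i, v l i * star (v l' i) =
        ∑ i, inner ℂ (((b l' : W) : EuclideanSpace ℂ (Fin n)) i)
          (((b l : W) : EuclideanSpace ℂ (Fin n)) i) := by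
      apply Finset.sum_congr rfl
      intro i _
      simp [v, RCLike.inner_apply]
    rw [h2, h1]
    by_cases e : l = l'
    · simp [e]
    · simp [e, Ne.symm e]
  have hg : GoodV B v gs := by
    intro pre c i post hgs hc l
    exact hW2 pre c i post hgs hc _ (b l).2
  have hcore := core_bound hζ hB hv hg hn h
  have hn1 : (1 : ℝ) ≤ n := by exact_mod_cast hn
  have hle : n - largeCount B gs ≤ k := by omega
  exact le_trans (pow_le_pow_right₀ hn1 hle) hcore
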