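import Mathlib
import Vale.Agent.Results.P344.A_few_large

/-!
Lower bound for linear circuits computing the discrete Fourier transform whose coefficients lie in
a number field: the cost of a scalar gate is the average over all complex embeddings of
`log (1 + |σ c| ^ 2)`, a quantity comparable to the Weil height of `c`.
-/

open Finset Matrix
open scoped ComplexOrder

namespace Vale.Agent.Lib.P344

section Product

variable {n k : ℕ}

/-- The growth factor of a gate. -/
noncomputable def gateFactor : Gate → ℝ
  | .add _ _ => 5
  | .sub _ _ => 5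
  | .smul c _ => 1 + ‖c‖ ^ 2

lemma gateFactor_pos (g : Gate) : 0 < gateFactor g := by
  cases g with
  | add a b => norm_num [gateFactor]
  | sub a b => norm_num [gateFactor]
  | smul c a =>
    simp only [gateFactor]
    positivity

lemma det_frame_le_prod {v : Fin k → Fin n → ℂ}
    (hv : ∀ l l', ∑ i, v l i * star (v l' i) = if l = l' then 1 else 0) (gs : List Gate) :
    ((frame v gs).det).re ≤ (gs.map gateFactor).prod := by
  induction gs using List.reverseRecOn with
  | nil =>
    rw [frame_nil hv]
    simp
  | append_singleton gs g ih =>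
    have hpos := frame_posDef hv gs
    set r := rowV v (gs ++ [g]) (n + 1 + gs.length) with hr
    have hlev : 1 + lev (frame v gs) r ≤ gateFactor g := by
      cases g with
      | add a b =>
        have : r = rowV v gs a + rowV v gs b := by
          funext l
          simp only [hr, rowV, val_concat_self, Gate.eval, Pi.add_apply]
        rw [this]
        have h1 := lev_row_le_one hv gs a
        have h2 := lev_row_le_one hv gs b
        have h3 := lev_add_le hpos (rowV v gs a) (rowV v gs b)
        simp only [gateFactor]
        linarith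
      | sub a b =>
        have : r = rowV v gs a - rowV v gs b := by
          funext l
          simp only [hr, rowV, val_concat_self, Gate.eval, Pi.sub_apply]
        rw [this]
        have h1 := lev_row_le_one hv gs a
        have h2 := lev_row_le_one hv gs b
        have h3 := lev_sub_le hpos (rowV v gs a) (rowV v gs b)
        simp only [gateFactor]
        linarith
      | smul c a =>
        have : r = c • rowV v gs a := by
          funext l
          simp only [hr, rowV, val_concat_self, Gate.eval, Pi.smul_apply, smul_eq_mul]
        rw [this, lev_smul]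
        have h1 := lev_row_le_one hv gs a
        have h2 := lev_nonneg hpos (rowV v gs a)
        have h4 : 0 ≤ ‖c‖ ^ 2 := by positivity
        simp only [gateFactor]
        nlinarith
    rw [frame_concat, det_update_re hpos]
    simp only [List.map_append, List.map_cons, List.map_nil, List.prod_append, List.prod_cons,
      List.prod_nil, mul_one]
    have h1 := (det_re_eq hpos).2
    have h2 := lev_nonneg hpos r
    have h3 : 0 ≤ (gs.map gateFactor).prod := by linarith
    exact mul_le_mul ih hlev (by linarith) h3

lemma det_frame_ge {ζ : ℂ} (hζ : IsPrimitiveRoot ζ n) {v : Fin k → Fin n → ℂ}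
    (hv : ∀ l l', ∑ i, v l i * star (v l' i) = if l = l' then 1 else 0) {gs : List Gate}
    (hn : 1 ≤ n) (h : ComputesDFT ζ n gs) :
    (n : ℝ) ^ k ≤ ((frame v gs).det).re := by
  obtain ⟨out, hout⟩ := h
  obtain ⟨hinj, hlt⟩ := out_props hζ hout
  have hsum := sum_out_rows hζ hv hout
  set T : Finset ℕ := range (n + 1 + gs.length) \ (univ.image out) with hT
  have hframe : frame v gs = (n : ℂ) • (1 : Matrix (Fin k) (Fin k) ℂ) +
      ∑ i ∈ T, vecMulVec (rowV v gs i) (star (rowV v gs i)) := by
    unfold frame
    have hsub : univ.image out ⊆ range (n + 1 + gs.length) := by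
      intro i hi
      obtain ⟨j, _, rfl⟩ := Finset.mem_image.mp hi
      exact Finset.mem_range.mpr (hlt j)
    rw [← Finset.sum_sdiff hsub, add_comm, Finset.sum_image (fun a _ b _ e => hinj e), hsum]
  have hX : ((n : ℂ) • (1 : Matrix (Fin k) (Fin k) ℂ)).PosDef := by
    have hn' : (0 : ℂ) < (n : ℂ) := by
      have : (0 : ℝ) < (n : ℝ) := by exact_mod_cast hn
      exact_mod_cast this
    exact PosDef.one.smul hn'
  have hlow := (det_sum_ge hX (rowV v gs) T).2
  rw [← hframe] at hlow
  have hdet : (((n : ℂ) • (1 : Matrix (Fin k) (Fin k) ℂ)).det).re = (n : ℝ) ^ k := by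
    rw [det_smul, det_one, mul_one, Fintype.card_fin]
    have : ((n : ℂ)) ^ k = (((n : ℝ) ^ k : ℝ) : ℂ) := by push_cast; rfl
    rw [this, Complex.ofReal_re]
  rw [hdet] at hlow
  exact hlow

/-- The product bound over the complex numbers. -/
lemma prod_bound {ζ : ℂ} (hζ : IsPrimitiveRoot ζ n) {gs : List Gate} (hn : 1 ≤ n)
    (h : ComputesDFT ζ n gs) : (n : ℝ) ^ n ≤ (gs.map gateFactor).prod := by
  let v : Fin n → Fin n → ℂ := fun l i => if l = i then 1 else 0
  have hv : ∀ l l', ∑ i, v l i * star (v l' i) = if l = l' then 1 else 0 := by
    intro l l'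
    simp [v]
  exact le_trans (det_frame_ge hζ hv hn h) (det_frame_le_prod hv gs)

lemma log_prod_gate (gs : List Gate) :
    Real.log (gs.map gateFactor).prod = (gs.map (fun g => Real.log (gateFactor g))).sum := by
  induction gs with
  | nil => simp
  | cons g gs ih =>
    have hpos : 0 < (gs.map gateFactor).prod := by
      apply List.prod_pos
      intro a ha
      obtain ⟨g', _, rfl⟩ := List.mem_map.mp ha
      exact gateFactor_pos g'
    simp only [List.map_cons, List.prod_cons, List.sum_cons]
    rw [Real.log_mul (gateFactor_pos g).ne' hpos.ne', ih]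

/-- The logarithmic form of the product bound. -/
lemma log_bound {ζ : ℂ} (hζ : IsPrimitiveRoot ζ n) {gs : List Gate} (hn : 1 ≤ n)
    (h : ComputesDFT ζ n gs) :
    (n : ℝ) * Real.log n ≤ (gs.map (fun g => Real.log (gateFactor g))).sum := by
  have h1 := prod_bound hζ hn h
  have hn0 : (0 : ℝ) < (n : ℝ) ^ n := by
    have : (0 : ℝ) < n := by exact_mod_cast hn
    positivity
  have h2 := Real.log_le_log hn0 h1
  rwa [Real.log_pow, log_prod_gate] at h2

end Product

section NumberField

variable {K : Type*} [Field K] [NumberField K]

/-- A gate of a linear circuit with coefficients in the field `K`. -/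
inductive GateK (K : Type*)
  | add (i j : ℕ)
  | sub (i j : ℕ)
  | smul (c : K) (i : ℕ)

/-- The complex gate obtained through a field embedding. -/
def GateK.toGate (σ : K →+* ℂ) : GateK K → Gate
  | .add i j => .add i j
  | .sub i j => .sub i j
  | .smul c i => .smul (σ c) i

/-- The cost of a gate: `log 5` for additions and subtractions and, for multiplication by `c`,
the average over all complex embeddings `σ` of `K` of `log (1 + |σ c| ^ 2)`. -/
noncomputable def heightCost : GateK K → ℝ
  | .add _ _ => Real.log 5
  | .sub _ _ => Real.log 5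
  | .smul c _ => (∑ σ : K →+* ℂ, Real.log (1 + ‖σ c‖ ^ 2)) / Fintype.card (K →+* ℂ)

/-- The value table over `K`. -/
def evalK (g : GateK K) (w : ℕ → K) : K :=
  match g with
  | .add i j => w i + w j
  | .sub i j => w i - w j
  | .smul c i => c * w i

/-- The value table over `K`. -/
def runK {n : ℕ} (y : Fin n → K) (gs : List (GateK K)) : ℕ × (ℕ → K) :=
  gs.foldl (fun p g => (p.1 + 1, Function.update p.2 p.1 (evalK g p.2)))
    (n + 1, fun k => if h : k < n then y ⟨k, h⟩ else 0)

omit [NumberField K] in
lemma runK_concat {n : ℕ} (y : Fin n → K) (gs : List (GateK K)) (g : GateK K) :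
    runK y (gs ++ [g]) = ((runK y gs).1 + 1,
      Function.update (runK y gs).2 (runK y gs).1 (evalK g (runK y gs).2)) := by
  simp [runK, List.foldl_append]

omit [NumberField K] in
lemma runK_fst {n : ℕ} (y : Fin n → K) (gs : List (GateK K)) :
    (runK y gs).1 = n + 1 + gs.length := by
  induction gs using List.reverseRecOn with
  | nil => rfl
  | append_singleton gs g ih =>
    rw [runK_concat]
    simp [ih]
    omega

omit [NumberField K] in
lemma map_runK {n : ℕ} (σ : K →+* ℂ) (y : Fin n → K) (gs : List (GateK K)) (i : ℕ) :
    σ ((runK y gs).2 i) = val (fun a => σ (y a)) (gs.map (GateK.toGate σ)) i := by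
  induction gs using List.reverseRecOn generalizing i with
  | nil =>
    simp only [runK, List.foldl_nil, List.map_nil, val, runTable, initTable]
    split_ifs <;> simp
  | append_singleton gs g ih =>
    rw [List.map_append]
    simp only [List.map_cons, List.map_nil]
    by_cases h : i = n + 1 + gs.length
    · subst h
      have hlen : n + 1 + gs.length = n + 1 + (gs.map (GateK.toGate σ)).length := by simp
      rw [runK_concat, runK_fst]
      simp only [Function.update_self]
      conv_rhs => rw [hlen, val_concat_self]
      cases g with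
      | add a b => simp [evalK, GateK.toGate, Gate.eval, ih]
      | sub a b => simp [evalK, GateK.toGate, Gate.eval, ih]
      | smul c a => simp [evalK, GateK.toGate, Gate.eval, ih]
    · rw [runK_concat, runK_fst]
      simp only [Function.update_of_ne h]
      rw [val_concat_ne _ _ _ (by simpa using h), ih]

lemma val_zero' {n : ℕ} (gs : List Gate) (i : ℕ) : val (0 : Fin n → ℂ) gs i = 0 := by
  have := val_smul (0 : ℂ) (0 : Fin n → ℂ) gs i
  simpa using this

lemma val_sum' {n : ℕ} {ι : Type*} (s : Finset ι) (f : ι → Fin n → ℂ) (gs : List Gate) (i : ℕ) :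
    val (∑ a ∈ s, f a) gs i = ∑ a ∈ s, val (f a) gs i := by
  classical
  induction s using Finset.induction_on with
  | empty => simpa using val_zero' gs i
  | insert a s ha ih => rw [Finset.sum_insert ha, Finset.sum_insert ha, val_add, ih]

/-- A circuit over `K` computing the Fourier matrix through one embedding does so through all. -/
lemma computes_all {n : ℕ} {ζ : K} (gs : List (GateK K)) (ι σ : K →+* ℂ)
    (h : ComputesDFT (ι ζ) n (gs.map (GateK.toGate ι))) :
    ComputesDFT (σ ζ) n (gs.map (GateK.toGate σ)) := by
  classical
  obtain ⟨out, hout⟩ := h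
  refine ⟨out, ?_⟩
  have hK : ∀ (y : Fin n → K) (j : Fin n),
      (runK y gs).2 (out j) = ∑ a : Fin n, ζ ^ ((j : ℕ) * (a : ℕ)) * y a := by
    intro y j
    apply ι.injective
    have h1 := hout (fun a => ι (y a)) j
    have h2 := map_runK ι y gs (out j)
    change ι ((runK y gs).2 (out j)) = _
    rw [h2]
    change val _ _ _ = _ at h1
    rw [h1, map_sum]
    apply Finset.sum_congr rfl
    intro a _
    simp
  have hS : ∀ (y : Fin n → K) (j : Fin n),
      val (fun a => σ (y a)) (gs.map (GateK.toGate σ)) (out j) =
        ∑ a : Fin n, (σ ζ) ^ ((j : ℕ) * (a : ℕ)) * σ (y a) := by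
    intro y j
    rw [← map_runK, hK, map_sum]
    apply Finset.sum_congr rfl
    intro a _
    simp
  intro x j
  change val x _ _ = _
  have hx : x = ∑ b : Fin n, x b • (fun a => σ ((Pi.single b 1 : Fin n → K) a)) := by
    funext c
    simp only [Finset.sum_apply, Pi.smul_apply, smul_eq_mul]
    rw [Finset.sum_eq_single c]
    · simp
    · intro b _ hb
      simp [Ne.symm hb]
    · simp
  conv_lhs => rw [hx]
  rw [val_sum']
  simp only [val_smul]
  apply Finset.sum_congr rfl
  intro b _
  rw [hS, Finset.sum_eq_single b]
  · simp
    ring
  · intro c _ hc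
    simp [hc]
  · simp

end NumberField

end Vale.Agent.Lib.P344

open Vale.Agent.Lib.P344 in
/-- Let `K` be a number field, `ι : K → ℂ` an embedding, `ζ ∈ K` a primitive `n`-th root of unity
and `gs` a linear circuit with coefficients in `K` whose image under `ι` computes the Fourier
matrix `(ι ζ) ^ (j k)`.  Then `n log n` is at most the sum of the costs of the gates, where an
addition or subtraction costs `log 5` and a multiplication by `c` costs the average over all
complex embeddings `σ` of `K` of `log (1 + |σ c| ^ 2)`. -/
theorem Vale.Agent.Results.P344.B_height.result {K : Type*} [Field K] [NumberField K]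
    {n : ℕ} (hn : 1 ≤ n) {ζ : K} (hζ : IsPrimitiveRoot ζ n) (ι : K →+* ℂ) (gs : List (GateK K))
    (h : ComputesDFT (ι ζ) n (gs.map (GateK.toGate ι))) :
    (n : ℝ) * Real.log n ≤ (gs.map heightCost).sum := by
  classical
  have hN : (0 : ℝ) < Fintype.card (K →+* ℂ) := by
    have : 0 < Fintype.card (K →+* ℂ) := Fintype.card_pos_iff.mpr ⟨ι⟩
    exact_mod_cast this
  have hσ : ∀ σ : K →+* ℂ, (n : ℝ) * Real.log n ≤
      ((gs.map (GateK.toGate σ)).map (fun g => Real.log (gateFactor g))).sum := by
    intro σ
    exact log_bound (hζ.map_of_injective σ.injective) hn (computes_all gs ι σ h)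
  have hsum : ∀ l : List (GateK K), ∑ σ : K →+* ℂ, ((l.map (GateK.toGate σ)).map
      (fun g => Real.log (gateFactor g))).sum =
      (Fintype.card (K →+* ℂ) : ℝ) * (l.map heightCost).sum := by
    intro l
    induction l with
    | nil => simp
    | cons g l ih =>
      simp only [List.map_cons, List.sum_cons]
      rw [Finset.sum_add_distrib, ih, mul_add]
      congr 1
      cases g with
      | add a b => simp [GateK.toGate, gateFactor, heightCost]
      | sub a b => simp [GateK.toGate, gateFactor, heightCost]
      | smul c a =>
        simp only [GateK.toGate, gateFactor, heightCost]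
        field_simp
  have h1 : ∑ _σ : K →+* ℂ, (n : ℝ) * Real.log n ≤ ∑ σ : K →+* ℂ, ((gs.map (GateK.toGate σ)).map
      (fun g => Real.log (gateFactor g))).sum :=
    Finset.sum_le_sum fun σ _ => hσ σ
  rw [hsum gs, Finset.sum_const, Finset.card_univ, nsmul_eq_mul] at h1
  exact le_of_mul_le_mul_left h1 hN
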